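import Vale.Agent.P259.Bdl.B1
import Vale.Agent.P259.H615.DefsQ

/-!
The fundamental `∞`-groupoid functor sends Serre fibrations to fibrations.
-/

open CategoryTheory Limits Opposite CompactlyGenerated

namespace Vale.Agent.P259

namespace H403

open Theta0

section

lemma abs_last_le {n : ℕ} (b : Ball (n + 1)) :
    |b.1 (Fin.last n)| ≤ Real.sqrt (1 - ‖initE b.1‖ ^ 2) := by
  have h := (mem_ball_iff b.1).1 b.2
  rw [norm_sq_succ] at h
  refine Real.abs_le_sqrt ?_
  linarith

lemma sqrt_nonneg' {n : ℕ} (b : Ball (n + 1)) : 0 ≤ 1 - ‖initE b.1‖ ^ 2 := by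
  have h := (mem_ball_iff b.1).1 b.2
  rw [norm_sq_succ] at h
  have := sq_nonneg (b.1 (Fin.last n))
  linarith

/-- `((x, t), s) ↦ (x, min t (2 s - √(1 - |x|²)))`. -/
noncomputable def ret (n : ℕ) : C(Ball (n + 1) × unitInterval, Ball (n + 1)) where
  toFun p := ⟨snocE (initE p.1.1) (min (p.1.1 (Fin.last n))
    (2 * (p.2 : ℝ) - Real.sqrt (1 - ‖initE p.1.1‖ ^ 2))), by
    have h1 := abs_le.1 (abs_last_le p.1)
    have h0 := sqrt_nonneg' p.1
    have hs := p.2.2.1
    rw [mem_ball_iff, norm_snocE_sq]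
    have h2 : (min (p.1.1 (Fin.last n)) (2 * (p.2 : ℝ) - Real.sqrt (1 - ‖initE p.1.1‖ ^ 2))) ^ 2 ≤
        Real.sqrt (1 - ‖initE p.1.1‖ ^ 2) ^ 2 := by
      refine sq_le_sq' ?_ ?_
      · exact le_min h1.1 (by linarith)
      · exact (min_le_left _ _).trans h1.2
    rw [Real.sq_sqrt h0] at h2
    linarith⟩
  continuous_toFun := by
    have h1 : Continuous fun p : Ball (n + 1) × unitInterval => initE p.1.1 :=
      continuous_initE.comp (continuous_subtype_val.comp continuous_fst)
    have h2 : Continuous fun p : Ball (n + 1) × unitInterval => p.1.1 (Fin.last n) :=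
      ((continuous_apply (Fin.last n)).comp (PiLp.continuous_ofLp 2 _)).comp
        (continuous_subtype_val.comp continuous_fst)
    have h3 : Continuous fun p : Ball (n + 1) × unitInterval => (p.2 : ℝ) :=
      continuous_subtype_val.comp continuous_snd
    refine Continuous.subtype_mk (continuous_snocE h1 (h2.min ?_)) _
    fun_prop

/-- `(x, t) ↦ (t + √(1 - |x|²)) / 2`. -/
noncomputable def sec (n : ℕ) : C(Ball (n + 1), unitInterval) where
  toFun b := ⟨(b.1 (Fin.last n) + Real.sqrt (1 - ‖initE b.1‖ ^ 2)) / 2, by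
    have h1 := abs_le.1 (abs_last_le b)
    have h2 : Real.sqrt (1 - ‖initE b.1‖ ^ 2) ≤ 1 := by
      rw [Real.sqrt_le_one]
      have := sq_nonneg ‖initE b.1‖
      linarith
    constructor
    · linarith [h1.1]
    · linarith [h1.2]⟩
  continuous_toFun := by
    have h1 : Continuous fun b : Ball (n + 1) => initE b.1 :=
      continuous_initE.comp continuous_subtype_val
    have h2 : Continuous fun b : Ball (n + 1) => b.1 (Fin.last n) :=
      ((continuous_apply (Fin.last n)).comp (PiLp.continuous_ofLp 2 _)).comp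
        continuous_subtype_val
    refine Continuous.subtype_mk ?_ _
    fun_prop

lemma ret_sec {n : ℕ} (b : Ball (n + 1)) : ret n (b, sec n b) = b := by
  apply Subtype.ext
  change snocE (initE b.1) (min (b.1 (Fin.last n))
    (2 * ((b.1 (Fin.last n) + Real.sqrt (1 - ‖initE b.1‖ ^ 2)) / 2) -
      Real.sqrt (1 - ‖initE b.1‖ ^ 2))) = b.1
  rw [show 2 * ((b.1 (Fin.last n) + Real.sqrt (1 - ‖initE b.1‖ ^ 2)) / 2) -
      Real.sqrt (1 - ‖initE b.1‖ ^ 2) = b.1 (Fin.last n) by ring, min_self, snocE_initE]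

lemma ret_zero {n : ℕ} (b : Ball (n + 1)) : ret n (b, 0) = hemi false n (projB n b) := by
  apply Subtype.ext
  change snocE (initE b.1) (min (b.1 (Fin.last n))
    (2 * (0 : ℝ) - Real.sqrt (1 - ‖initE b.1‖ ^ 2))) =
      snocE (initE b.1) (sgn false * Real.sqrt (1 - ‖initE b.1‖ ^ 2))
  have h1 := abs_le.1 (abs_last_le b)
  congr 1
  rw [mul_zero, zero_sub, min_eq_right h1.1]
  simp [sgn]

lemma sec_hemi {n : ℕ} (a : Ball n) : sec n (hemi false n a) = 0 := by
  apply Subtype.ext
  change ((snocE a.1 (sgn false * Real.sqrt (1 - ‖a.1‖ ^ 2))) (Fin.last n) +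
    Real.sqrt (1 - ‖initE (snocE a.1 (sgn false * Real.sqrt (1 - ‖a.1‖ ^ 2)))‖ ^ 2)) / 2 = 0
  rw [snocE_last, initE_snocE]
  simp [sgn]

/-- The homotopy lifting property for the ball gives the lifting property against the inclusion
of the lower hemisphere. -/
theorem hlp_hemi {Y Z : Type*} [TopologicalSpace Y] [TopologicalSpace Z] (p : C(Y, Z)) (n : ℕ)
    (hp : ∀ (h : C(Ball (n + 1) × unitInterval, Z)) (u : C(Ball (n + 1), Y)),
      (∀ x, p (u x) = h (x, 0)) →
        ∃ g : C(Ball (n + 1) × unitInterval, Y), (∀ x, g (x, 0) = u x) ∧ ∀ x, p (g x) = h x)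
    (u : C(Ball n, Y)) (w : C(Ball (n + 1), Z)) (h : ∀ a, w (hemi false n a) = p (u a)) :
    ∃ v : C(Ball (n + 1), Y), (∀ a, v (hemi false n a) = u a) ∧ ∀ b, p (v b) = w b := by
  obtain ⟨g, hg0, hg⟩ := hp (w.comp (ret n)) (u.comp (projB n)) (by
    intro b
    change p (u (projB n b)) = w (ret n (b, 0))
    rw [ret_zero, h])
  refine ⟨g.comp ((ContinuousMap.id _).prodMk (sec n)), fun a => ?_, fun b => ?_⟩
  · change g (hemi false n a, sec n (hemi false n a)) = u a
    rw [sec_hemi, hg0]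
    change u (projB n (hemi false n a)) = u a
    rw [projB_hemi]
  · change p (g (b, sec n b)) = w b
    rw [hg]
    change w (ret n (b, sec n b)) = w b
    rw [ret_sec]

end

section

variable {Q : Type} [SmallCategory Q] (J : StmtB.Glob Q)

/-- `Π` sends Serre fibrations to fibrations. -/
theorem gfib_map {F : Q ⥤ CompactlyGenerated.{0, 0}} (hF : StmtB.IsDisc J F)
    (h : ∀ Y, StmtB.Gl J yoneda ((F.op ⋙ coyoneda).flip.obj Y))
    {Y Z : CompactlyGenerated.{0, 0}} (p : Y ⟶ Z) (hp : H615.serre p) :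
    H615.gfib J ((H615.toGpd J (F.op ⋙ coyoneda).flip h).map p) := by
  have hF' : S.IsDisc (StmtB.Ext.to ⟨Q, J⟩).G F := StmtB.isDisc_to hF
  obtain ⟨hB⟩ := hF'.2
  obtain ⟨e, he⟩ : ∃ e : ∀ k, (F.obj (J.o (disc k))).toTop ≃ₜ Ball k,
      ∀ (k : ℕ) (x : (F.obj (J.o (disc k))).toTop),
        e (k + 1) ((F.map (J.s (.face false k.lt_succ_self))).hom.hom x) = hemi false k (e k x) :=
    ⟨fun k => hB.homeo k, fun k x => hB.homeo_face false k x⟩
  intro n u w huw
  -- the cells as maps
  have key : ∀ (T : CompactlyGenerated.{0, 0}) {k l : ℕ} (φ : J.o (disc k) ⟶ J.o (disc l))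
      (x : yoneda.obj (J.o (disc l)) ⟶ (F.op ⋙ coyoneda).flip.obj T),
      (yonedaEquiv (yoneda.map φ ≫ x) : F.obj (J.o (disc k)) ⟶ T) =
        F.map φ ≫ (yonedaEquiv x : F.obj (J.o (disc l)) ⟶ T) := by
    intro T k l φ x
    exact (yonedaEquiv_naturality x φ).symm
  let u' : F.obj (J.o (disc n)) ⟶ Y := yonedaEquiv u
  let w' : F.obj (J.o (disc n.succ)) ⟶ Z := yonedaEquiv w
  have hcomp : ∀ {k : ℕ} (x : yoneda.obj (J.o (disc k)) ⟶
      ((H615.toGpd J (F.op ⋙ coyoneda).flip h).obj Y).obj),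
      (yonedaEquiv (x ≫ ((H615.toGpd J (F.op ⋙ coyoneda).flip h).map p).hom) :
        F.obj (J.o (disc k)) ⟶ Z) = (yonedaEquiv x : F.obj (J.o (disc k)) ⟶ Y) ≫ p := by
    intro k x
    exact yonedaEquiv_comp x _
  have h1 : F.map (J.s (.face false n.lt_succ_self)) ≫ w' = u' ≫ p := by
    have h2 := congrArg yonedaEquiv huw
    exact (key Z _ w).symm.trans (h2.trans (hcomp u))
  -- the lifting problem for balls
  obtain ⟨v, hv1, hv2⟩ := hlp_hemi p.hom.hom n (fun h u => hp (n + 1) h u)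
    (u'.hom.hom.comp (⟨(e n).symm, (e n).symm.continuous⟩ :
      C(Ball n, (F.obj (J.o (disc n))).toTop)))
    (w'.hom.hom.comp (⟨(e (n + 1)).symm, (e (n + 1)).symm.continuous⟩ :
      C(Ball (n + 1), (F.obj (J.o (disc n.succ))).toTop))) (by
      intro a
      have h3 := congrArg (fun t : F.obj (J.o (disc n)) ⟶ Z => t.hom.hom ((e n).symm a)) h1
      have h4 : (e (n + 1)).symm (hemi false n a) =
          (F.map (J.s (.face false n.lt_succ_self))).hom.hom ((e n).symm a) := by
        rw [Homeomorph.symm_apply_eq]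
        have h5 := he n ((e n).symm a)
        rw [Homeomorph.apply_symm_apply] at h5
        exact h5.symm
      change w'.hom.hom ((e (n + 1)).symm (hemi false n a)) = _
      rw [h4]
      exact h3)
  let v' : F.obj (J.o (disc n.succ)) ⟶ Y :=
    homCG (X := F.obj (J.o (disc n.succ))) (Y := Y)
      (TopCat.ofHom (v.comp (⟨e (n + 1), (e (n + 1)).continuous⟩ :
        C((F.obj (J.o (disc n.succ))).toTop, Ball (n + 1)))))
  refine ⟨yonedaEquiv.symm v', ?_, ?_⟩
  · apply yonedaEquiv.injective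
    refine (key Y _ _).trans ?_
    rw [Equiv.apply_symm_apply]
    apply S.IsBall.cg_ext
    intro x
    change v (e (n + 1) ((F.map (J.s (.face false n.lt_succ_self))).hom.hom x)) = u'.hom.hom x
    rw [he, hv1]
    change u'.hom.hom ((e n).symm (e n x)) = _
    rw [Homeomorph.symm_apply_apply]
  · apply yonedaEquiv.injective
    refine (hcomp _).trans ?_
    rw [Equiv.apply_symm_apply]
    apply S.IsBall.cg_ext
    intro x
    change p.hom.hom (v (e (n + 1) x)) = w'.hom.hom x
    rw [hv2]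
    change w'.hom.hom ((e (n + 1)).symm (e (n + 1) x)) = _
    rw [Homeomorph.symm_apply_apply]

end

end H403

end Vale.Agent.P259
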