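import Vale.Agent.P259.Bdl.B1
import Vale.Agent.P259.H615.Defs

/-!
Truncated `∞`-groupoids: invariance under weak equivalences, and comparison with homotopy
`m`-types.
-/

open CategoryTheory Limits Opposite CompactlyGenerated

namespace Vale.Agent.P259

namespace H403

open Theta0

universe v u

section

variable {𝓜 : Type u} [Category.{v} 𝓜] [HasPushouts 𝓜] [HasInitial 𝓜]

/-- All fillers of the sphere `β` are homotopic. -/
def Uni (F : Globe ⥤ 𝓜) {X : 𝓜} {j : ℕ} (β : sph F j ⟶ X) : Prop :=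
  ∀ u v : cob F j ⟶ X, bd F j ≫ u = β → bd F j ≫ v = β → Hty F u v

/-- The truncated objects. -/
def Tr (F : Globe ⥤ 𝓜) (φ : ∀ n, cob F n ⟶ cob F 0) (m : ℕ) (X : 𝓜) : Prop :=
  ∀ (x : cob F 0 ⟶ X) n, m ≤ n → Uni F (bd F (n + 1) ≫ φ (n + 1) ≫ x)

end

section

variable {𝓜 : Type u} [Category.{v} 𝓜] [HasLimits 𝓜] [HasColimits 𝓜] (K : PathCtx 𝓜)

lemma uni_iff_of_bij {X Y : 𝓜} {f : X ⟶ Y} {j : ℕ} {β : sph K.F j ⟶ X} (h : K.Bij f β) :
    Uni K.F β ↔ Uni K.F (β ≫ f) := by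
  constructor
  · intro hU u v hu hv
    obtain ⟨u', h1, h2⟩ := h.1 u hu
    obtain ⟨v', h3, h4⟩ := h.1 v hv
    exact K.gc.hty_trans (K.gc.hty_trans (K.gc.hty_symm h2) ((hU u' v' h1 h3).comp f)) h4
  · intro hU u v hu hv
    exact h.2 u v hu hv (hU _ _ (by rw [← Category.assoc, hu]) (by rw [← Category.assoc, hv]))

lemma uni_iff_of_path {X : 𝓜} {j : ℕ} (H : sph K.F j ⟶ K.P.obj X) :
    Uni K.F (H ≫ K.pm.app X) ↔ Uni K.F (H ≫ K.pp.app X) :=
  (uni_iff_of_bij K (K.bij_of_trivFib (K.pm_triv X) H)).symm.trans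
    (uni_iff_of_bij K (K.bij_of_trivFib (K.pp_triv X) H))

lemma uni_iff_of_hty {X : 𝓜} {j : ℕ} (φ : cob K.F j ⟶ cob K.F 0) {x y : cob K.F 0 ⟶ X}
    (h : Hty K.F x y) : Uni K.F (bd K.F j ≫ φ ≫ x) ↔ Uni K.F (bd K.F j ≫ φ ≫ y) := by
  obtain ⟨a, ha1, ha2⟩ := h
  obtain ⟨H, h1, h2⟩ := K.exists_path (K.isCof_sph_cob j).1 (K.gc.disc 1)
    (bd K.F j ≫ φ ≫ sg K.F 0) (bd K.F j ≫ φ ≫ tg K.F 0)
  have h3 := uni_iff_of_path K (H ≫ K.P.map a)
  have e1 : (H ≫ K.P.map a) ≫ K.pm.app X = bd K.F j ≫ φ ≫ x := by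
    rw [Category.assoc, K.pm.naturality, ← Category.assoc H, h1]
    simp only [Functor.id_map, Category.assoc, ha1]
  have e2 : (H ≫ K.P.map a) ≫ K.pp.app X = bd K.F j ≫ φ ≫ y := by
    rw [Category.assoc, K.pp.naturality, ← Category.assoc H, h2]
    simp only [Functor.id_map, Category.assoc, ha2]
  rwa [e1, e2] at h3

theorem tr_congr (φ : ∀ n, cob K.F n ⟶ cob K.F 0) (m : ℕ) {X Y : 𝓜} (f : X ⟶ Y) (hf : K.W f) :
    Tr K.F φ m X ↔ Tr K.F φ m Y := by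
  rw [K.W_iff_bij] at hf
  constructor
  · intro h y n hn
    obtain ⟨x, -, hx⟩ := (hf 0 ((isInitialSphZero K.F).to X)).1 y (sph_zero_hom_ext _ _ _)
    rw [← uni_iff_of_hty K _ hx]
    have h1 := (uni_iff_of_bij K (hf (n + 1) (bd K.F (n + 1) ≫ φ (n + 1) ≫ x))).1 (h x n hn)
    simpa only [Category.assoc] using h1
  · intro h x n hn
    refine (uni_iff_of_bij K (hf (n + 1) _)).2 ?_
    have h1 := h (x ≫ f) n hn
    simpa only [Category.assoc] using h1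

end

section

/-- The truncation condition, for a sequence of objects. -/
def TrB {𝓜 : Type u} [Category.{v} 𝓜] {B : ℕ → 𝓜} (d : Bool → ∀ n, B n ⟶ B (Nat.succ n))
    (c : ∀ n, B n ⟶ B 0) (m : ℕ) (X : 𝓜) : Prop :=
  ∀ (x : B 0 ⟶ X) n, m ≤ n → ∀ u v : B (Nat.succ n) ⟶ X,
    (∀ ι, d ι n ≫ u = c n ≫ x) → (∀ ι, d ι n ≫ v = c n ≫ x) →
      ∃ w, d false n.succ ≫ w = u ∧ d true n.succ ≫ w = v

lemma trB_iff {𝓜 : Type u} [Category.{v} 𝓜] [HasPushouts 𝓜] [HasInitial 𝓜] (F : Globe ⥤ 𝓜)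
    (φ : ∀ n, cob F n ⟶ cob F 0)
    (hφ : ∀ b k, F.map (Globe.face b (Nat.lt_succ_self k)) ≫ φ (k + 1) = φ k) (m : ℕ) (X : 𝓜) :
    TrB (B := cob F) (fun b n => F.map (Globe.face b (Nat.lt_succ_self n))) φ m X ↔
      Tr F φ m X := by
  have hbd : ∀ (x : cob F 0 ⟶ X) (k : ℕ) (w : cob F (k + 1) ⟶ X),
      bd F (k + 1) ≫ w = bd F (k + 1) ≫ φ (k + 1) ≫ x ↔
        ∀ b, F.map (Globe.face b (Nat.lt_succ_self k)) ≫ w = φ k ≫ x := by
    intro x k w
    rw [bd_comp_eq_iff]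
    have e1 : sg F k ≫ φ (k + 1) ≫ x = φ k ≫ x := by
      rw [← Category.assoc]
      exact congrArg (fun z => z ≫ x) (hφ false k)
    have e2 : tg F k ≫ φ (k + 1) ≫ x = φ k ≫ x := by
      rw [← Category.assoc]
      exact congrArg (fun z => z ≫ x) (hφ true k)
    rw [e1, e2]
    constructor
    · rintro ⟨h1, h2⟩ b
      cases b with
      | false => exact h1
      | true => exact h2
    · intro h
      exact ⟨h false, h true⟩
  constructor
  · intro h x n hn u v hu hv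
    exact h x n hn u v ((hbd x n u).1 hu) ((hbd x n v).1 hv)
  · intro h x n hn u v hu hv
    exact h x n hn u v ((hbd x n u).2 hu) ((hbd x n v).2 hv)

lemma trB_transport {K : Type u} [Category.{v} K] {L : Type*} [Category L] {B : ℕ → K}
    {B' : ℕ → L} (d : Bool → ∀ n, B n ⟶ B (Nat.succ n)) (d' : Bool → ∀ n, B' n ⟶ B' (Nat.succ n))
    (c : ∀ n, B n ⟶ B 0) (c' : ∀ n, B' n ⟶ B' 0) (m : ℕ) {X : K} {X' : L}
    (κ : ∀ n, (B n ⟶ X) ≃ (B' n ⟶ X'))
    (hd : ∀ b n (u : B (Nat.succ n) ⟶ X), κ n (d b n ≫ u) = d' b n ≫ κ n.succ u)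
    (hc : ∀ n (x : B 0 ⟶ X), κ n (c n ≫ x) = c' n ≫ κ 0 x) :
    TrB d c m X ↔ TrB d' c' m X' := by
  have hb : ∀ {n : ℕ} (x : B 0 ⟶ X) (u : B (Nat.succ n) ⟶ X),
      (∀ b, d' b n ≫ κ n.succ u = c' n ≫ κ 0 x) ↔ ∀ b, d b n ≫ u = c n ≫ x := by
    intro n x u
    constructor
    · intro h b
      apply (κ n).injective
      rw [hd, hc, h]
    · intro h b
      rw [← hd, ← hc, h]
  constructor
  · intro h x n hn u v hu hv
    obtain ⟨x, rfl⟩ := (κ 0).surjective x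
    obtain ⟨u, rfl⟩ := (κ _).surjective u
    obtain ⟨v, rfl⟩ := (κ _).surjective v
    obtain ⟨w, rfl, rfl⟩ := h x n hn u v ((hb x u).1 hu) ((hb x v).1 hv)
    exact ⟨κ _ w, (hd _ _ _).symm, (hd _ _ _).symm⟩
  · intro h x n hn u v hu hv
    obtain ⟨w, h1, h2⟩ := h (κ 0 x) n hn (κ _ u) (κ _ v) ((hb x u).2 hu) ((hb x v).2 hv)
    obtain ⟨w, rfl⟩ := (κ _).surjective w
    rw [← hd] at h1 h2
    exact ⟨w, (κ _).injective h1, (κ _).injective h2⟩

end

section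

variable {Q : Type} [SmallCategory Q] (J : StmtB.Glob Q)

/-- The globular extension of the development. -/
abbrev AA : S.Ext := StmtB.Ext.to ⟨Q, J⟩

/-- Groupoids of the statement, in the development. -/
def gp (X : H615.Gpd J) : (AA J).Gp := ⟨X.obj, X.property⟩

/-- Morphisms of groupoids of the statement, in the development. -/
def gpMap {X Y : H615.Gpd J} (f : X ⟶ Y) : gp J X ⟶ gp J Y := ⟨f.hom⟩

/-- The iterated identities in the development. -/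
noncomputable def qq (id : ∀ n, StmtB.Ext.H ⟨Q, J⟩ (disc n) (disc 0)) (n : ℕ) :
    cob ((AA J).GE.F ⊤) n ⟶ cob ((AA J).GE.F ⊤) 0 :=
  ((AA J).GE.y ⊤).map (show (.of (disc n) : (AA J).GE.Obj) ⟶ .of (disc 0) from id n)

lemma hface (b : Bool) (n : ℕ) : ((AA J).GE.F ⊤).map (Globe.face b (Nat.lt_succ_self n)) =
    ((AA J).GE.y ⊤).map (show (.of (disc n) : (AA J).GE.Obj) ⟶ .of (disc (n + 1)) from
      (AA J).G.s (.face b (Nat.lt_succ_self n))) := by
  have h1 : (show (.of (disc n) : (AA J).GE.Obj) ⟶ .of (disc (n + 1)) from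
      (AA J).G.s (.face b (Nat.lt_succ_self n))) =
        (AA J).GE.J.map (face b (Nat.lt_succ_self n)) :=
    ((AA J).incl_face b (Nat.lt_succ_self n)).symm
  rw [h1]
  rfl

lemma qq_face (id : ∀ n, StmtB.Ext.H ⟨Q, J⟩ (disc n) (disc 0)) (hid : H615.IsIdent J id)
    (b : Bool) (k : ℕ) :
    ((AA J).GE.F ⊤).map (Globe.face b (Nat.lt_succ_self k)) ≫ qq J id (k + 1) = qq J id k := by
  rw [hface]
  refine (((AA J).GE.y ⊤).map_comp _ _).symm.trans ?_
  exact congrArg ((AA J).GE.y ⊤).map (hid k b)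

lemma trunc_iff_tr (id : ∀ n, StmtB.Ext.H ⟨Q, J⟩ (disc n) (disc 0)) (hid : H615.IsIdent J id)
    (m : ℕ) (X : H615.Gpd J) :
    H615.trunc J id m X ↔ Tr ((AA J).GE.F ⊤) (qq J id) m ((AA J).E.obj (gp J X)) := by
  rw [← trB_iff ((AA J).GE.F ⊤) (qq J id) (qq_face J id hid) m]
  refine trB_transport (B := fun n => yoneda.obj ((AA J).G.o (disc n)))
    (B' := cob ((AA J).GE.F ⊤))
    (fun b n => yoneda.map ((AA J).G.s (.face b (Nat.lt_succ_self n))))
    (fun b n => ((AA J).GE.F ⊤).map (Globe.face b (Nat.lt_succ_self n)))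
    (fun n => yoneda.map (id n)) (qq J id) m (X := (gp J X).obj)
    (fun n => S.cellE (gp J X) n) ?_ ?_
  · intro b n u
    rw [hface]
    exact S.cellE_left (gp J X) _ u
  · intro n x
    exact S.cellE_left (gp J X) _ x

/-- **(A)** Truncatedness is invariant under weak equivalences. -/
theorem trunc_congr (hJ : StmtB.IsCoherator (StmtB.Ext.mk Q J))
    (id : ∀ n, StmtB.Ext.H ⟨Q, J⟩ (disc n) (disc 0)) (hid : H615.IsIdent J id) (m : ℕ)
    {X Y : H615.Gpd J} (f : X ⟶ Y) (hf : H615.gwe J id f) :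
    H615.trunc J id m X ↔ H615.trunc J id m Y := by
  have hC : (AA J).GE.IsCoherator := S.isCoherator_GE hJ.to
  obtain ⟨K0⟩ := GlobExt.exists_cylFun_zero hC
  rw [trunc_iff_tr J id hid, trunc_iff_tr J id hid]
  have hW : (K0.pathCtx hC).W ((AA J).E.map (gpMap J f)) :=
    (S.we_iff_W hC K0 id (fun b n => hid n b) (gpMap J f)).1 hf
  exact tr_congr (K0.pathCtx hC) (qq J id) m _ hW

end

section

open scoped unitInterval Topology Topology.Homotopy

/-- Triviality of the homotopy groups in terms of balls. -/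
lemma subsingleton_iff {Y : Type*} [TopologicalSpace Y] (n : ℕ) (y : Y) :
    Subsingleton (HomotopyGroup (Fin n) Y y) ↔ ∀ u v : C(Ball n, Y),
      (∀ z, ‖z.1‖ = 1 → u z = y) → (∀ z, ‖z.1‖ = 1 → v z = y) → BHty u v := by
  obtain ⟨e, he⟩ := exists_ball_homeo n
  have e2 : ∀ t ∈ Cube.boundary (Fin n), ‖(e.symm t).1‖ = 1 := by
    intro t ht
    rw [← he, e.apply_symm_apply]
    exact ht
  constructor
  · intro h u v hu hv
    have h1 := h.elim
      (Quotient.mk _ (⟨u.comp (e.symm : C(Fin n → I, Ball n)), fun t ht => hu _ (e2 t ht)⟩ :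
        GenLoop (Fin n) Y y))
      (Quotient.mk _ (⟨v.comp (e.symm : C(Fin n → I, Ball n)), fun t ht => hv _ (e2 t ht)⟩ :
        GenLoop (Fin n) Y y))
    have h2 : (u.comp (e.symm : C(Fin n → I, Ball n))).HomotopicRel
      (v.comp (e.symm : C(Fin n → I, Ball n))) (Cube.boundary (Fin n)) := Quotient.exact h1
    rwa [homotopic_iff_bHty e he, comp_symm_comp, comp_symm_comp] at h2
  · intro h
    refine ⟨fun a b => ?_⟩
    obtain ⟨p, rfl⟩ := Quotient.exists_rep a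
    obtain ⟨q, rfl⟩ := Quotient.exists_rep b
    have h2 := h (p.1.comp (e : C(Ball n, Fin n → I))) (q.1.comp (e : C(Ball n, Fin n → I)))
      (fun z hz => p.2 _ ((he z).2 hz)) (fun z hz => q.2 _ ((he z).2 hz))
    rw [← homotopic_iff_bHty e he] at h2
    exact Quotient.sound h2

variable {C : GlobExt} (Δ : DiscFunctor C)

open GlobExt in
lemma tr_Pi_iff (φ : ∀ k, cob (C.F ⊤) k ⟶ cob (C.F ⊤) 0) (m : ℕ) (Y : TopCat.{0}) :
    Tr (C.F ⊤) φ m (Δ.Pi.obj Y) ↔ ∀ (y : Y) i, m < i → Subsingleton (HomotopyGroup (Fin i) Y y) := by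
  have z0 : Ball 0 := ⟨0, by simp⟩
  have hb : ∀ (k : ℕ) (x : cob (C.F ⊤) 0 ⟶ Δ.Pi.obj Y) (w : cob (C.F ⊤) (k + 1) ⟶ Δ.Pi.obj Y),
      bd (C.F ⊤) (k + 1) ≫ w = bd (C.F ⊤) (k + 1) ≫ φ (k + 1) ≫ x ↔
      ∀ z : Ball (k + 1), ‖z.1‖ = 1 → Δ.toBall w z = Δ.toBall x z0 := by
    intro k x w
    rw [Δ.bd_eq_iff]
    refine forall_congr' (fun z => forall_congr' (fun hz => ?_))
    rw [Δ.toBall_const _ x z z0]
  constructor
  · intro h y i hi
    obtain ⟨n, rfl⟩ : ∃ n, i = n + 1 := ⟨i - 1, by omega⟩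
    obtain ⟨x, hx⟩ := Δ.toBall_surjective (ContinuousMap.const (Ball 0) y)
    have hx' : Δ.toBall x z0 = y := by rw [hx]; rfl
    rw [subsingleton_iff]
    intro u v hu hv
    obtain ⟨u, rfl⟩ := Δ.toBall_surjective u
    obtain ⟨v, rfl⟩ := Δ.toBall_surjective v
    rw [← Δ.hty_iff]
    rw [← hx'] at hu hv
    exact h x n (by omega) u v ((hb n x u).2 hu) ((hb n x v).2 hv)
  · intro h x n hn u v hu hv
    rw [Δ.hty_iff]
    exact (subsingleton_iff (n + 1) (Δ.toBall x z0)).1 (h _ (n + 1) (by omega)) _ _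
      ((hb n x u).1 hu) ((hb n x v).1 hv)

end

section

variable {Q : Type} [SmallCategory Q] (J : StmtB.Glob Q)

/-- **(B)** The fundamental `∞`-groupoid of `Y` is `m`-truncated iff `Y` is a homotopy `m`-type. -/
theorem trunc_iff (hJ : StmtB.IsCoherator (StmtB.Ext.mk Q J))
    (id : ∀ n, StmtB.Ext.H ⟨Q, J⟩ (disc n) (disc 0)) (hid : H615.IsIdent J id) (m : ℕ)
    {F : Q ⥤ CompactlyGenerated.{0, 0}} (hF : StmtB.IsDisc J F)
    (h : ∀ Y, StmtB.Gl J yoneda ((F.op ⋙ coyoneda).flip.obj Y)) (Y : CompactlyGenerated.{0, 0}) :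
    H615.trunc J id m ((ObjectProperty.lift (StmtB.Gl J yoneda) (F.op ⋙ coyoneda).flip h).obj Y) ↔
      H615.htype m Y := by
  have hC : (AA J).GE.IsCoherator := S.isCoherator_GE hJ.to
  obtain ⟨K0⟩ := GlobExt.exists_cylFun_zero hC
  have hF' : S.IsDisc (AA J).G F := StmtB.isDisc_to hF
  have e : (AA J).E.obj (gp J ((ObjectProperty.lift (StmtB.Gl J yoneda) (F.op ⋙ coyoneda).flip h).obj Y)) ≅
      hF'.toDisc.PiCG.obj Y := (S.piIso hF' h).app Y
  rw [trunc_iff_tr J id hid]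
  refine (tr_congr (K0.pathCtx hC) (qq J id) m e.hom
    (MorphismProperty.of_isIso (K0.pathCtx hC).W e.hom)).trans ?_
  exact tr_Pi_iff hF'.toDisc (qq J id) m (compactlyGeneratedToTop.obj Y)

end

end H403

end Vale.Agent.P259
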